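import Vale.Agent.P263.H968.Dickson
import Vale.Agent.P263.H968.QS0

/-!
Spherical classes in `H_*(Q_0 S^0; F_2)` and generators of the Dickson algebras.

A nonzero class in the image of `h_d` is primitive and annihilated by all `Sq^r_*`, `r ≥ 1`; the
homology of `Q_0 S^0` is a polynomial algebra (Dyer-Lashof), so the class is `y^(2^k)` with `y` in
degree `e`, primitive and annihilated by all `Sq^r_*`, and nonzero in the indecomposable quotient,
which is dual to the sum over `n ≥ 1` of the `A`-modules `Q_{n,0} D_n` (Madsen). So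
`F_2 ⊗_A (Q_{n,0} D_n)` is nonzero in degree `e` for some `n ≥ 1`. Part (1) bounds the number of
degrees of this kind without any hypothesis; part (2) states the consequence for the Hurewicz
image, with the published upper bound as an explicit hypothesis.
-/

namespace Vale.Agent.Results.P263.CombinedDensity

open Vale.Agent.P263.H968

/-- The degrees `d` in which some Dickson algebra `D_n`, `n ≥ 1`, has a generator over the Steenrod
algebra, together with the degrees `d = 2^k e` for which some ideal `Q_{n,0} D_n`, `n ≥ 1`, has a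
generator over the Steenrod algebra in degree `e`. -/
def Exceptional (d : ℕ) : Prop :=
  (∃ n, 1 ≤ n ∧ HasGenerator n (dicksonIdeal n 0) d) ∨
    ∃ k e n, 1 ≤ n ∧ d = 2 ^ k * e ∧ HasGenerator n (dicksonIdeal n 1) e

theorem result : ∃ C : ℝ,
    -- (1) unconditional: the degrees of the generators are rare
    (∀ N : ℕ, (Set.ncard {d : ℕ | 1 ≤ d ∧ d ≤ N ∧ Exceptional d} : ℝ) ≤
      C * (N : ℝ) ^ (299 / 300 : ℝ)) ∧
    -- (2) the Hurewicz image, given the published upper bound for it
    ((∀ d : ℕ, 1 ≤ d → HasSphericalClass d →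
        ∃ k e n, 1 ≤ n ∧ d = 2 ^ k * e ∧ HasGenerator n (dicksonIdeal n 1) e) →
      ∀ N : ℕ, (Set.ncard {d : ℕ | 1 ≤ d ∧ d ≤ N ∧ HasSphericalClass d} : ℝ) ≤
        C * (N : ℝ) ^ (299 / 300 : ℝ)) := by
  classical
  obtain ⟨C, hC⟩ := main_count
  refine ⟨C, fun N => le_trans (le_of_eq ?_) (hC N), fun upperBound N => le_trans ?_ (hC N)⟩
  · rw [← Set.ncard_coe_finset]
    congr 2
    ext d
    simp only [Exceptional, Finset.coe_filter, Finset.mem_range, Set.mem_ofPred_eq]
    constructor
    · rintro ⟨h1, h2, h3⟩; exact ⟨by omega, h1, h3⟩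
    · rintro ⟨h1, h2, h3⟩; exact ⟨h2, by omega, h3⟩
  · rw [← Set.ncard_coe_finset, Nat.cast_le]
    apply Set.ncard_le_ncard _ (Finset.finite_toSet _)
    rintro d ⟨h1, h2, h3⟩
    simp only [Finset.coe_filter, Finset.mem_range, Set.mem_ofPred_eq]
    exact ⟨by omega, h1, Or.inr (upperBound d h1 h3)⟩

end Vale.Agent.Results.P263.CombinedDensity
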