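import Vale.Agent.P263.H968.Dickson

/-!
Spherical classes in `H_*(Q_0 S^0; F_2)` and generators of the Dickson algebras.

A nonzero class in the image of `h_d` is primitive and annihilated by all `Sq^r_*`, `r ≥ 1`; it is
either nonzero in the indecomposable quotient of `H_*(Q_0 S^0; F_2)`, which is dual to the sum over
`n ≥ 1` of the `A`-modules `Q_{n,0} D_n` (Madsen), or the square of such a class in degree `d / 2`.
So `h_d = 0` unless `d = 2^k e` for some `k` and some degree `e` in which an `A`-module
`Q_{n,0} D_n`, `n ≥ 1`, has a generator. The target of the Lannes-Zarati homomorphism in stem `d` is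
dual to `F_2 ⊗_A D_n` in degree `d`. We show that both kinds of degrees are rare.
-/

namespace Vale.Agent.Results.P263.DicksonDensity

open Vale.Agent.P263.H968

/-- The degrees `d` in which some Dickson algebra `D_n`, `n ≥ 1`, has a generator over the Steenrod
algebra, together with the degrees `d = 2^k e` for which some ideal `Q_{n,0} D_n`, `n ≥ 1`, has a
generator over the Steenrod algebra in degree `e`. -/
def Exceptional (d : ℕ) : Prop :=
  (∃ n, 1 ≤ n ∧ HasGenerator n (dicksonIdeal n 0) d) ∨
    ∃ k e n, 1 ≤ n ∧ d = 2 ^ k * e ∧ HasGenerator n (dicksonIdeal n 1) e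

theorem result : ∃ C : ℝ, ∀ N : ℕ,
    (Set.ncard {d : ℕ | 1 ≤ d ∧ d ≤ N ∧ Exceptional d} : ℝ) ≤ C * (N : ℝ) ^ (299 / 300 : ℝ) := by
  classical
  obtain ⟨C, hC⟩ := main_count
  refine ⟨C, fun N => le_trans (le_of_eq ?_) (hC N)⟩
  rw [← Set.ncard_coe_finset]
  congr 2
  ext d
  simp only [Exceptional, Finset.coe_filter, Finset.mem_range, Set.mem_ofPred_eq]
  constructor
  · rintro ⟨h1, h2, h3⟩; exact ⟨by omega, h1, h3⟩
  · rintro ⟨h1, h2, h3⟩; exact ⟨h2, by omega, h3⟩

end Vale.Agent.Results.P263.DicksonDensity
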