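import Vale.Agent.P263.H968.Dickson
import Vale.Agent.P263.H968.QS0

/-!
Curtis's conjecture holds in all degrees outside a set of density zero: `h_d = 0` for all `d ≤ N`
with at most `C N^(299/300)` exceptions.

The hypothesis `upperBound` is the published upper bound for the Hurewicz image: a nonzero class
`h_d(α)` in `H_d(Q_0 S^0; F_2)` is primitive and annihilated by all `Sq^r_*`, `r ≥ 1`. The homology of
`Q_0 S^0` is a polynomial algebra (Dyer-Lashof), so `h_d(α) = y^(2^k)` with `y` in degree `e`,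
primitive and annihilated by all `Sq^r_*`, and nonzero in the indecomposable quotient, which is dual
to the sum over `n ≥ 1` of the `A`-modules `Q_{n,0} D_n` (Madsen). So `F_2 ⊗_A (Q_{n,0} D_n)` is
nonzero in degree `e` for some `n ≥ 1`.
-/

namespace Vale.Agent.Results.P263.HurewiczDensity

open Vale.Agent.P263.H968

theorem result
    (upperBound : ∀ d : ℕ, 1 ≤ d → HasSphericalClass d →
      ∃ k e n, 1 ≤ n ∧ d = 2 ^ k * e ∧ HasGenerator n (dicksonIdeal n 1) e) :
    ∃ C : ℝ, ∀ N : ℕ,
      (Set.ncard {d : ℕ | 1 ≤ d ∧ d ≤ N ∧ HasSphericalClass d} : ℝ) ≤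
        C * (N : ℝ) ^ (299 / 300 : ℝ) := by
  classical
  obtain ⟨C, hC⟩ := main_count
  refine ⟨C, fun N => le_trans ?_ (hC N)⟩
  rw [← Set.ncard_coe_finset, Nat.cast_le]
  apply Set.ncard_le_ncard _ (Finset.finite_toSet _)
  rintro d ⟨h1, h2, h3⟩
  simp only [Finset.coe_filter, Finset.mem_range, Set.mem_ofPred_eq]
  exact ⟨by omega, h1, Or.inr (upperBound d h1 h3)⟩

end Vale.Agent.Results.P263.HurewiczDensity
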